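import Vale.Agent.P354MD.Sy
import Vale.Agent.P354XY.Defs

/-!
MID: the second derivative of r along a curve, and metrics near Kerr for large r.
-/

open scoped ContDiff
open Set Filter Topology

noncomputable section

namespace Vale.Agent.P354MD

open Vale.Agent.P354n (R4)
open Vale.Agent.P354XE Vale.Agent.P354XA
open Vale.Agent.P354XY (Gd MID)

theorem ip_der {z y : ℝ → R4} {z' y' : R4} {s : ℝ} (h : HasDerivAt z z' s) (k : HasDerivAt y y' s) :
    HasDerivAt (fun t => ip (z t) (y t)) (ip z' (y s) + ip (z s) y') s := by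
  have c : ∀ {x : ℝ → R4} {x' : R4}, HasDerivAt x x' s → HasDerivAt (fun t => (x t).2.1) x'.2.1 s ∧
      HasDerivAt (fun t => (x t).2.2.1) x'.2.2.1 s ∧ HasDerivAt (fun t => (x t).2.2.2) x'.2.2.2 s :=
    fun h => ⟨by simpa using h.hasFDerivAt.snd.fst.hasDerivAt,
      by simpa using h.hasFDerivAt.snd.snd.fst.hasDerivAt,
      by simpa using h.hasFDerivAt.snd.snd.snd.hasDerivAt⟩
  refine ((((c h).1.mul (c k).1).add ((c h).2.1.mul (c k).2.1)).add
    ((c h).2.2.mul (c k).2.2)).congr_deriv ?_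
  simp only [ip]; ring

theorem mid1 (z : ℝ → R4) (s : ℝ) (hz : ContDiffAt ℝ 2 z s) (hr : rd (z s) ≠ 0) :
    HasDerivAt (fun t => dr (z t) (deriv z t))
      ((ip (deriv z s) (deriv z s) - dr (z s) (deriv z s) ^ 2) / rd (z s) +
        dr (z s) (deriv (deriv z) s)) s := by
  have h1 : HasDerivAt z (deriv z s) s := (hz.differentiableAt (by norm_num)).hasDerivAt
  have h2 : HasDerivAt (deriv z) (deriv (deriv z) s) s := by
    have k : ContDiffAt ℝ 1 (fun t => fderiv ℝ z t 1) s :=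
      (hz.fderiv_right (m := 1) (by norm_num)).clm_apply contDiffAt_const
    exact (k.differentiableAt one_ne_zero).hasDerivAt
  have h3 : HasDerivAt (fun t => rd (z t)) (dr (z s) (deriv z s)) s := by
    rw [← rd_fd hr]
    exact ((rd_cd (n := 1) hr).differentiableAt one_ne_zero).hasFDerivAt.comp_hasDerivAt s h1
  simp only [dr_eq] at h3 ⊢
  refine ((ip_der h1 h2).div h3 hr).congr_deriv ?_
  field_simp
  ring

/-- A metric near Kerr is almost flat far out. -/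
theorem far_flat (M a : ℝ) {δ : ℝ} (δ0 : 0 < δ) : ∃ R0 c : ℝ, 0 < c ∧ 1 ≤ R0 ∧
    ∀ (g : Tw) (p : R4) (ε : ℝ), R0 ≤ rd p → Gd g p → ε * rd p ≤ c → Bd 1 (g - gin M a) p ε →
    ∀ v w : R4, DifferentiableAt ℝ (fun x => g x v w) p ∧ |g p v w - fl v w| ≤ δ * (‖v‖ * ‖w‖) ∧
      ‖fderiv ℝ (fun x => g x v w) p‖ ≤ δ / rd p * (‖v‖ * ‖w‖) := by
  obtain ⟨C, C0, hC⟩ := gin_far M a
  refine ⟨max 1 (2 * C / δ), δ / 2, by positivity, le_max_left _ _, fun g p ε hp hg he hb v w => ?_⟩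
  have r1 : 1 ≤ rd p := (le_max_left _ _).trans hp
  have r0 := one_pos.trans_le r1
  have r2 : C / rd p ≤ δ / 2 := by
    have := (div_le_iff₀ δ0).1 ((le_max_right _ _).trans hp)
    rw [div_le_iff₀ r0]; linarith
  have e1 : ε ≤ δ / 2 / rd p := (le_div_iff₀ r0).2 he
  have e2 : δ / 2 / rd p ≤ δ / 2 := div_le_self (by positivity) r1
  have n0 : 0 ≤ ‖v‖ * ‖w‖ := by positivity
  obtain ⟨h1, h2, h3⟩ := hC p v w r1
  obtain ⟨G, hG, gG, -⟩ := hg
  have d : DifferentiableAt ℝ (fun x => g x v w) p :=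
    ((hG.clm_apply (differentiableAt_const v)).clm_apply
      (differentiableAt_const w)).congr_of_eventuallyEq (gG.mono fun x hx => hx v w)
  have b0 := hb 0 (by norm_num) v w
  have b1 := hb 1 le_rfl v w
  rw [norm_iteratedFDeriv_zero, Real.norm_eq_abs] at b0
  rw [norm_iteratedFDeriv_one] at b1
  simp only [Pi.sub_apply] at b0 b1
  refine ⟨d, ?_, ?_⟩
  · have := abs_sub_le (g p v w) (gin M a p v w) (fl v w)
    nlinarith [mul_le_mul_of_nonneg_right r2 n0, mul_le_mul_of_nonneg_right (e1.trans e2) n0]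
  · rw [fderiv_fun_sub d h1] at b1
    have k := norm_le_norm_add_norm_sub' (fderiv ℝ (fun x => g x v w) p)
      (fderiv ℝ (fun x => gin M a x v w) p)
    have r3 : C / rd p ^ 2 ≤ δ / 2 / rd p := by
      rw [sq, ← div_div]; gcongr
    have r4 : δ / rd p = δ / 2 / rd p + δ / 2 / rd p := by ring
    rw [r4]
    nlinarith [mul_le_mul_of_nonneg_right r3 n0, mul_le_mul_of_nonneg_right e1 n0]

theorem fl_le (v w : R4) : |fl v w| ≤ 4 * (‖v‖ * ‖w‖) := by
  have k := mul_le_mul (co_le v).1 (co_le w).1 (abs_nonneg _) (norm_nonneg _)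
  rw [← abs_mul, ← abs_neg] at k
  linarith [abs_add_le (-(v.1 * w.1)) (ip v w), ip_le v w, show |fl v w| = |-(v.1 * w.1) + ip v w| from rfl]

theorem mid : MID := by
  refine ⟨mid1, fun M a η η0 => ?_⟩
  obtain ⟨δ, δ0, δ1, δ2⟩ : ∃ δ : ℝ, 0 < δ ∧ δ ≤ η / 6 ∧ δ ≤ 1 / 2 :=
    ⟨min (η / 6) (1 / 2), by positivity, min_le_left _ _, min_le_right _ _⟩
  obtain ⟨R0, c, c0, R1, h⟩ := far_flat M a δ0
  refine ⟨R0, c, c0, fun g p ε hp hg he hb => ?_⟩
  replace h := h g p ε hp hg he hb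
  have r0 := one_pos.trans_le (R1.trans hp)
  refine ⟨fun v w => ?_, fun w u A A0 hA => ?_⟩
  · rw [show g p v w + v.1 * w.1 - ip v w = g p v w - fl v w by rw [fl]; ring]
    exact (h v w).2.1.trans (mul_le_mul_of_nonneg_right (by linarith) (by positivity))
  obtain ⟨v, hv, e⟩ : ∃ v : R4, ‖v‖ = ‖u‖ ∧ ‖u‖ ^ 2 ≤ fl v u :=
    ⟨(-u.1, u.2), by simp [Prod.norm_def], (norm_sq_le u).trans_eq (by simp only [fl, ip]; ring)⟩
  have u0 := norm_nonneg u
  have w0 := norm_nonneg w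
  have k := hA v
  rw [low, (h v w).1.lineDeriv_eq_fderiv, (h w w).1.lineDeriv_eq_fderiv] at k
  have k1 := (abs_le.1 (h v u).2.1).1
  have k2 := ((fderiv ℝ (fun x => g x v w) p).le_opNorm w).trans
    (mul_le_mul_of_nonneg_right (h v w).2.2 w0)
  have k3 := ((fderiv ℝ (fun x => g x w w) p).le_opNorm v).trans
    (mul_le_mul_of_nonneg_right (h w w).2.2 (norm_nonneg v))
  have k4 := (abs_le.1 (h v v).2.1).2
  have k5 : |g p v w| ≤ 5 * (‖u‖ * ‖w‖) := by
    have := abs_sub_le (g p v w) (fl v w) 0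
    rw [sub_zero, sub_zero] at this
    have k6 := (h v w).2.1
    have k7 := fl_le v w
    rw [hv] at k6 k7
    nlinarith [mul_nonneg u0 w0]
  have k6 := (abs_le.1 (fl_le v v)).2
  rw [hv] at k1 k2 k3 k4 k6
  rw [Real.norm_eq_abs, abs_le] at k2 k3
  have k7 : √(g p v v + 2 * g p v w ^ 2) ≤ 8 * (‖u‖ * (1 + ‖w‖)) := by
    refine Real.sqrt_le_iff.2 ⟨by positivity, ?_⟩
    have k8 := pow_le_pow_left₀ (abs_nonneg _) k5 2
    rw [sq_abs] at k8
    nlinarith [mul_nonneg u0 u0, mul_nonneg (mul_nonneg u0 u0) w0, sq_nonneg (‖u‖ * ‖w‖)]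
  have k8 := (le_abs_self _).trans (k.trans (mul_le_mul_of_nonneg_left k7 A0))
  have q0 : 0 ≤ δ / rd p * ‖w‖ ^ 2 := by positivity
  have q1 : 0 ≤ A * (1 + ‖w‖) := by positivity
  have k9 : ‖u‖ ≤ 3 * (δ / rd p * ‖w‖ ^ 2) + 16 * (A * (1 + ‖w‖)) := by
    rcases u0.eq_or_lt with z | z
    · rw [← z]; positivity
    refine le_of_mul_le_mul_left ?_ z
    nlinarith [k2.1, k3.2, mul_nonneg u0 u0]
  have q2 : 6 * (δ / rd p * ‖w‖ ^ 2) ≤ η / rd p * ‖w‖ ^ 2 := by
    rw [← mul_assoc, ← mul_div_assoc]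
    gcongr
    linarith
  linarith [dr_le p u]

end Vale.Agent.P354MD
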