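import Vale.Agent.P354XA.Near

/-!
A crude symbol class, and the decay of the Kerr metric and of its first derivatives.
-/

open scoped ContDiff
open Set Filter Topology

noncomputable section

namespace Vale.Agent.P354MD

open Vale.Agent.P354n (R4)
open Vale.Agent.P354I (X dT dP rnd Sg)
open Vale.Agent.P354XE Vale.Agent.P354XA

variable {p : R4} {c d : ℝ} {f g : R4 → ℝ}

/-- f and r Df are bounded by c at p. -/
def Sy (p : R4) (c : ℝ) (f : R4 → ℝ) : Prop :=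
  DifferentiableAt ℝ f p ∧ |f p| ≤ c ∧ ‖fderiv ℝ f p‖ * rd p ≤ c

theorem Sy.mono (h : Sy p c f) (k : c ≤ d) : Sy p d f := ⟨h.1, h.2.1.trans k, h.2.2.trans k⟩

theorem Sy.nn (h : Sy p c f) : 0 ≤ c := (abs_nonneg _).trans h.2.1

theorem Sy.congr (h : Sy p c f) (e : g =ᶠ[𝓝 p] f) : Sy p c g :=
  ⟨h.1.congr_of_eventuallyEq e, by rw [e.self_of_nhds]; exact h.2.1, by rw [e.fderiv_eq]; exact h.2.2⟩

theorem Sy.add (h : Sy p c f) (k : Sy p d g) : Sy p (c + d) fun x => f x + g x := by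
  refine ⟨h.1.add k.1, (abs_add_le _ _).trans (add_le_add h.2.1 k.2.1), ?_⟩
  rw [fderiv_fun_add h.1 k.1]
  have := mul_le_mul_of_nonneg_right (norm_add_le (fderiv ℝ f p) (fderiv ℝ g p)) (rd_nonneg p)
  linarith [h.2.2, k.2.2]

theorem Sy.mul (h : Sy p c f) (k : Sy p d g) : Sy p (2 * (c * d)) fun x => f x * g x := by
  have c0 := h.nn
  have d0 := k.nn
  refine ⟨h.1.mul k.1, ?_, ?_⟩
  · rw [abs_mul]
    nlinarith [mul_le_mul h.2.1 k.2.1 (abs_nonneg _) c0, mul_nonneg c0 d0]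
  rw [fderiv_fun_mul h.1 k.1]
  have e := norm_add_le (f p • fderiv ℝ g p) (g p • fderiv ℝ f p)
  rw [norm_smul, norm_smul, Real.norm_eq_abs, Real.norm_eq_abs] at e
  have e1 := mul_le_mul h.2.1 k.2.2 (mul_nonneg (norm_nonneg _) (rd_nonneg p)) c0
  have e2 := mul_le_mul k.2.1 h.2.2 (mul_nonneg (norm_nonneg _) (rd_nonneg p)) d0
  nlinarith [mul_le_mul_of_nonneg_right e (rd_nonneg p)]

theorem sy_const (p : R4) (k : ℝ) : Sy p |k| fun _ => k :=
  ⟨differentiableAt_const k, le_rfl, by simp⟩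

theorem Sy.inv (h : Sy p c f) {m : ℝ} (m0 : 0 < m) (hm : m ≤ f p) :
    Sy p (c / m ^ 2) fun x => (f x)⁻¹ := by
  have f0 : 0 < f p := m0.trans_le hm
  have k := h.2.1
  rw [abs_of_pos f0] at k
  refine ⟨h.1.inv f0.ne', ?_, ?_⟩
  · rw [abs_of_pos (inv_pos.2 f0), le_div_iff₀ (by positivity), inv_mul_le_iff₀ f0]
    nlinarith
  have e : fderiv ℝ (fun x => (f x)⁻¹) p = (-(f p ^ 2)⁻¹) • fderiv ℝ f p :=
    ((hasDerivAt_inv f0.ne').comp_hasFDerivAt p h.1.hasFDerivAt).fderiv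
  rw [e, norm_smul, norm_neg, Real.norm_eq_abs, abs_of_pos (by positivity), mul_assoc,
    ← div_eq_inv_mul]
  exact div_le_div₀ h.nn h.2.2 (by positivity) (by gcongr)

theorem co_le (v : R4) : |v.1| ≤ ‖v‖ ∧ |v.2.1| ≤ ‖v‖ ∧ |v.2.2.1| ≤ ‖v‖ ∧ |v.2.2.2| ≤ ‖v‖ :=
  ⟨norm_fst_le v, (norm_fst_le v.2).trans (norm_snd_le v),
    (norm_fst_le v.2.2).trans ((norm_snd_le v.2).trans (norm_snd_le v)),
    (norm_snd_le v.2.2).trans ((norm_snd_le v.2).trans (norm_snd_le v))⟩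

theorem ip_le (v w : R4) : |ip v w| ≤ 3 * (‖v‖ * ‖w‖) := by
  obtain ⟨-, a1, a2, a3⟩ := co_le v
  obtain ⟨-, b1, b2, b3⟩ := co_le w
  have k1 := mul_le_mul a1 b1 (abs_nonneg _) (norm_nonneg _)
  have k2 := mul_le_mul a2 b2 (abs_nonneg _) (norm_nonneg _)
  have k3 := mul_le_mul a3 b3 (abs_nonneg _) (norm_nonneg _)
  rw [← abs_mul] at k1 k2 k3
  rw [abs_le] at *
  unfold ip
  constructor <;> linarith [k1.1, k1.2, k2.1, k2.2, k3.1, k3.2]

theorem rd_le (v : R4) : rd v ≤ 2 * ‖v‖ := by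
  refine le_of_sq_le_sq ?_ (by positivity)
  nlinarith [rd_sq v, ip_le v v, le_abs_self (ip v v), norm_nonneg v]

theorem ip_le' (p v : R4) : |ip p v| ≤ rd p * (2 * ‖v‖) := by
  rw [← inn]
  exact (abs_real_inner_le_norm _ _).trans (mul_le_mul_of_nonneg_left (rd_le v) (rd_nonneg p))

theorem dr_le (p v : R4) : |dr p v| ≤ 2 * ‖v‖ := by
  rw [dr_eq, abs_div, abs_of_nonneg (rd_nonneg p)]
  exact div_le_of_le_mul₀ (rd_nonneg p) (by positivity) ((ip_le' p v).trans_eq (mul_comm _ _))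

/-- The product with v as a continuous linear map. -/
def ipL (v : R4) : R4 →L[ℝ] ℝ := LinearMap.toContinuousLinearMap
  { toFun := fun x => ip x v
    map_add' := fun x y => by simp only [ip, Prod.fst_add, Prod.snd_add]; ring
    map_smul' := fun c x => by
      simp only [ip, Prod.smul_fst, Prod.smul_snd, smul_eq_mul, RingHom.id_apply]; ring }

theorem sy_ip (p v : R4) : Sy p (3 * (‖v‖ * rd p)) fun x => ip x v := by
  have := rd_nonneg p
  refine ⟨(ipL v).differentiableAt, (ip_le' p v).trans (by nlinarith [norm_nonneg v]), ?_⟩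
  have e : fderiv ℝ (fun x => ip x v) p = ipL v := (ipL v).fderiv
  rw [e, ← mul_assoc]
  refine mul_le_mul_of_nonneg_right (ContinuousLinearMap.opNorm_le_bound _ (by positivity)
    fun x => (ip_le x v).trans_eq (by ring)) this

theorem sy_rd (h : 0 < rd p) : Sy p (2 * rd p) rd := by
  refine ⟨(rd_cd (n := 1) h.ne').differentiableAt one_ne_zero, by rw [abs_of_pos h]; linarith, ?_⟩
  refine mul_le_mul_of_nonneg_right (ContinuousLinearMap.opNorm_le_bound _ (by positivity)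
    fun x => ?_) h.le
  rw [rd_fd h.ne']
  exact dr_le p x

/-! ### The class -/

/-- Symbols of order k which are of degree i in v and j in w. -/
def S (i j : ℕ) (k : ℤ) (F : R4 → R4 → R4 → ℝ) : Prop :=
  ∃ C, 0 ≤ C ∧ ∀ p v w, 1 ≤ rd p → Sy p (C * (‖v‖ ^ i * ‖w‖ ^ j * rd p ^ k)) fun x => F x v w

variable {i j i' j' : ℕ} {k k' : ℤ} {F G : R4 → R4 → R4 → ℝ}

theorem S.add (h : S i j k F) (h' : S i j k G) : S i j k fun x v w => F x v w + G x v w := by
  obtain ⟨C, C0, h⟩ := h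
  obtain ⟨D, D0, h'⟩ := h'
  exact ⟨C + D, by positivity, fun p v w hp => ((h p v w hp).add (h' p v w hp)).mono (le_of_eq (by ring))⟩

theorem S.mul (h : S i j k F) (h' : S i' j' k' G) :
    S (i + i') (j + j') (k + k') fun x v w => F x v w * G x v w := by
  obtain ⟨C, C0, h⟩ := h
  obtain ⟨D, D0, h'⟩ := h'
  refine ⟨2 * (C * D), by positivity, fun p v w hp =>
    ((h p v w hp).mul (h' p v w hp)).mono (le_of_eq ?_)⟩
  rw [zpow_add₀ (by positivity)]
  ring

theorem S.up (h : S i j k F) (hk : k ≤ k') : S i j k' F := by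
  obtain ⟨C, C0, h⟩ := h
  refine ⟨C, C0, fun p v w hp => (h p v w hp).mono ?_⟩
  have := zpow_le_zpow_right₀ hp hk
  gcongr

theorem S.swap (h : S i j k F) : S j i k fun x v w => F x w v := by
  obtain ⟨C, C0, h⟩ := h
  exact ⟨C, C0, fun p v w hp => (h p w v hp).mono (le_of_eq (by ring))⟩

theorem S.congr (h : S i j k F) (e : ∀ x v w, 0 < rd x → G x v w = F x v w) : S i j k G := by
  obtain ⟨C, C0, h⟩ := h
  refine ⟨C, C0, fun p v w hp => (h p v w hp).congr ?_⟩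
  filter_upwards [(isOpen_lt continuous_const rd_cont).mem_nhds (one_pos.trans_le hp)] with x hx
  exact e x v w hx

theorem s_const (b : R4 → R4 → ℝ) (C : ℝ) (C0 : 0 ≤ C) (h : ∀ v w, |b v w| ≤ C * (‖v‖ ^ i * ‖w‖ ^ j)) :
    S i j 0 fun _ v w => b v w :=
  ⟨C, C0, fun p v w _ => (sy_const p _).mono (by simpa using h v w)⟩

theorem S.cm (h : S i j k F) (c : ℝ) : S i j k fun x v w => c * F x v w := by
  simpa using (s_const (i := 0) (j := 0) (fun _ _ => c) |c| (abs_nonneg c) (by simp)).mul h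

theorem s_rd : S 0 0 1 fun x _ _ => rd x :=
  ⟨2, two_pos.le, fun p v w hp => (sy_rd (one_pos.trans_le hp)).mono (by simp)⟩

theorem S.inv {f : R4 → ℝ} (h : S 0 0 k fun x _ _ => f x) (hf : ∀ x, 0 < rd x → rd x ^ k ≤ f x) :
    S 0 0 (-k) fun x _ _ => (f x)⁻¹ := by
  obtain ⟨C, C0, h⟩ := h
  refine ⟨C, C0, fun p v w hp => ?_⟩
  have r0 := one_pos.trans_le hp
  have z0 := zpow_pos r0 k
  refine ((h p v w hp).inv z0 (hf p r0)).mono (le_of_eq ?_)
  rw [zpow_neg]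
  field_simp

theorem s_ri : S 0 0 (-1) fun x _ _ => (rd x)⁻¹ := s_rd.inv fun _ _ => by simp

theorem s_dr (L : R4 → R4) (h : ∀ v, ‖L v‖ ≤ ‖v‖ ^ i) : S i 0 0 fun x v _ => dr x (L v) := by
  have k : S i 0 1 fun x v _ => ip x (L v) := ⟨3, by norm_num, fun p v w hp => (sy_ip p (L v)).mono (by
    have := h v
    simp only [pow_zero, mul_one, zpow_one]
    gcongr)⟩
  exact (k.mul s_ri).congr fun x v w _ => by rw [dr_eq, div_eq_mul_inv]

theorem s_dr1 : S 1 0 0 fun x v _ => dr x v := s_dr (fun v => v) (by simp)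

theorem s_dq : S 1 0 (-1) fun x v _ => dq x v := by
  refine ((s_dr (i := 1) (fun v => (0, v.2.2.1, -v.2.1, 0)) fun v => ?_).mul s_ri).congr
    fun x v w hx => ?_
  · obtain ⟨-, a1, a2, -⟩ := co_le v
    simp only [Prod.norm_def, norm_zero, Real.norm_eq_abs, abs_neg, pow_one, max_le_iff]
    exact ⟨norm_nonneg v, a2, a1, norm_nonneg v⟩
  · rw [dq_eq, dr_eq, ip]; field_simp; ring

theorem s_rnd : S 1 1 (-2) fun x v w => rnd (xs x) (xs v) (xs w) := by
  refine (((s_const (i := 1) (j := 1) ip 3 (by norm_num) fun v w => by simpa using ip_le v w).add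
    ((s_dr1.mul s_dr1.swap).cm (-1))).mul (s_ri.mul s_ri)).congr fun x v w hx => ?_
  rw [rnd_eq, dr_eq, dr_eq]; field_simp; ring

theorem s_z : S 0 0 0 fun x _ _ => x.2.2.2 ^ 2 / rd x ^ 2 := by
  have k := s_dr (i := 0) (fun _ => (0, 0, 0, 1)) fun v => by simp [Prod.norm_def]
  refine (k.mul k).congr fun x v w hx => ?_
  rw [dr_eq, ip]; field_simp; ring

theorem s_Si (a : ℝ) : S 0 0 (-2) fun x _ _ => (Sg a (rd x) (xs x))⁻¹ :=
  S.inv (k := 2) (((s_rd.mul s_rd).add ((s_z.cm (a ^ 2)).up (by norm_num))).congr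
    fun x _ _ _ => by rw [Sg_eq, sq (rd x)]) fun x _ => by simpa using Sg_ge a x

theorem s_kf (a : ℝ) : S 1 0 0 fun x v _ => kf a x v := by
  refine (((s_const (i := 1) (j := 0) (fun v _ => v.1) 1 one_pos.le
    fun v w => by simpa using (co_le v).1).add s_dr1).add
      ((s_dq.cm (-a)).up (by norm_num))).congr fun x v w _ => ?_
  rw [kf]; ring

/-- The flat metric. -/
def fl (v w : R4) : ℝ := -(v.1 * w.1) + ip v w

theorem s_gin (M a : ℝ) : S 1 1 (-1) fun x v w => gin M a x v w - fl v w := by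
  have k1 : S 1 1 (-1) fun x v w => dr x v * dq x w + dq x v * dr x w :=
    (s_dr1.mul s_dq.swap).add (s_dq.mul s_dr1.swap)
  have k2 := ((s_z.mul s_rnd).cm (a ^ 2)).up (k' := -1) (by norm_num)
  have k3 := ((s_dq.mul s_dq.swap).cm (a ^ 2)).up (k' := -1) (by norm_num)
  have k4 : S 1 1 (-1) fun x v w => 2 * M * (rd x * (Sg a (rd x) (xs x))⁻¹ * (kf a x v * kf a x w)) :=
    ((s_rd.mul (s_Si a)).mul ((s_kf a).mul (s_kf a).swap)).cm (2 * M)
  refine ((((k1.cm (-a)).add k2).add k3).add k4).congr fun x v w hx => ?_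
  have e : rd x ^ 2 * rnd (xs x) (xs v) (xs w) = ip v w - dr x v * dr x w := by
    rw [rnd_eq, dr_eq, dr_eq]; field_simp
  rw [gin, fl, div_eq_mul_inv (2 * M * rd x)]
  nth_rewrite 1 [Sg_eq]
  linear_combination e

/-- The Kerr metric is flat up to C / r, and its derivative is at most C / r^2. -/
theorem gin_far (M a : ℝ) : ∃ C, 0 ≤ C ∧ ∀ p v w, 1 ≤ rd p →
    DifferentiableAt ℝ (fun x => gin M a x v w) p ∧
    |gin M a p v w - fl v w| ≤ C / rd p * (‖v‖ * ‖w‖) ∧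
    ‖fderiv ℝ (fun x => gin M a x v w) p‖ ≤ C / rd p ^ 2 * (‖v‖ * ‖w‖) := by
  obtain ⟨C, C0, h⟩ := s_gin M a
  refine ⟨C, C0, fun p v w hp => ?_⟩
  obtain ⟨h1, h2, h3⟩ := h p v w hp
  have r0 := one_pos.trans_le hp
  refine ⟨by simpa using h1.add_const (fl v w), h2.trans_eq (by simp; field_simp), ?_⟩
  rw [fderiv_sub_const, ← le_div_iff₀ r0] at h3
  exact h3.trans_eq (by simp; field_simp)

end Vale.Agent.P354MD
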